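import Vale.Agent.P024.M3.Defs

namespace Vale.Agent.P024.M3

open NumberField IsDedekindDomain



/-- (H) Herbrand quotients of a subgroup of finite index. -/
def PropH.{u} : Prop := ∀ (M : Type u) [CommGroup M] (d n : M →* M), (∀ x, d (n x) = 1) →
  (∀ x, n (d x) = 1) → ∀ A B : Subgroup M, B ≤ A → B.relIndex A ≠ 0 → A.map d ≤ A → A.map n ≤ A →
  B.map d ≤ B → B.map n ≤ B → h0 d n B ≠ 0 → h1 d n B ≠ 0 →
  h0 d n A ≠ 0 ∧ h1 d n A ≠ 0 ∧ h0 d n A * h1 d n B = h0 d n B * h1 d n A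

/-- (H90) -/
def PropH90.{u} : Prop := ∀ (F L : Type u) [Field F] [Field L] [Algebra F L] [FiniteDimensional F L]
  [IsGalois F L] (σ : L ≃ₐ[F] L), (∀ τ, τ ∈ Subgroup.zpowers σ) → ∀ B : Subgroup Lˣ,
  h1 (dd σ) (nn F L) B = e1 (dd σ) B

/-- (U) Herbrand quotient of the `v`-units. -/
def PropU.{u} : Prop := ∀ (F L : Type u) [Field F] [NumberField F] [Field L] [NumberField L]
  [Algebra F L] [IsGalois F L] [IsTotallyReal F] (σ : L ≃ₐ[F] L), (∀ τ, τ ∈ Subgroup.zpowers σ) →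
  Odd (Module.finrank F L) → ∀ v : HeightOneSpectrum (𝓞 F), Split L v →
  h0 (dd σ) (nn F L) (UU L v) ≠ 0 ∧
    h1 (dd σ) (nn F L) (UU L v) = Module.finrank F L * h0 (dd σ) (nn F L) (UU L v)

/-- (A) ambiguous ideals. -/
def PropA.{u} : Prop := ∀ (F L : Type u) [Field F] [NumberField F] [Field L] [NumberField L]
  [Algebra F L] [IsGalois F L] (σ : L ≃ₐ[F] L), (∀ τ, τ ∈ Subgroup.zpowers σ) →
  ∀ (p : ℕ), p.Prime → (∀ w : HeightOneSpectrum (𝓞 L), (p : 𝓞 L) ∉ w.asIdeal → Unr F w) →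
  ∀ v : HeightOneSpectrum (𝓞 F), (p : 𝓞 F) ∉ v.asIdeal → e1 (dd σ) (RR L p) ≠ 0 →
  e1 (dd σ) (UU L v) ≤ classNumber F * e1 (dd σ) (RR L p)

/-- (D) local norm index. -/
def PropD.{u} : Prop := ∀ (F L : Type u) [Field F] [NumberField F] [Field L] [NumberField L]
  [Algebra F L] [IsGalois F L] (σ : L ≃ₐ[F] L), (∀ τ, τ ∈ Subgroup.zpowers σ) →
  ∀ (p : ℕ), p.Prime → e1 (dd σ) (RR L p) ≠ 0 ∧ ∃ k : ℕ,
    ((RR L p).map (nn F L) ⊔ (VS L p k ⊓ (dd σ).ker)).relIndex (RR L p ⊓ (dd σ).ker) ≠ 0 ∧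
    e1 (dd σ) (RR L p) ≤
      ((RR L p).map (nn F L) ⊔ (VS L p k ⊓ (dd σ).ker)).relIndex (RR L p ⊓ (dd σ).ker)

/-- (E) the closure of the `v`-units is open. -/
def PropE.{u} : Prop := ∀ (F : Type u) [Field F] [NumberField F] [IsTotallyReal F],
  Module.finrank ℚ F ≤ 2 → ∀ (p : ℕ), p.Prime → p ≠ 2 → ∀ v : HeightOneSpectrum (𝓞 F),
  (p : 𝓞 F) ∉ v.asIdeal → ∃ C : ℕ, ∀ k : ℕ, (UF v ⊔ VS F p k).relIndex (RR F p) ≠ 0 ∧
    (UF v ⊔ VS F p k).relIndex (RR F p) ≤ C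

/-- (TR) transfer from `F` to `L`. -/
def PropTR.{u} : Prop := ∀ (F L : Type u) [Field F] [NumberField F] [Field L] [NumberField L]
  [Algebra F L] [IsGalois F L] (σ : L ≃ₐ[F] L), (∀ τ, τ ∈ Subgroup.zpowers σ) →
  (dd σ).ker = (Units.map (algebraMap F L : F →* L)).range ∧
  (∀ (p : ℕ), p.Prime → RR L p ⊓ (dd σ).ker = (RR F p).map (Units.map (algebraMap F L : F →* L))) ∧
  (∀ (p k : ℕ), p.Prime →
    VS L p k ⊓ (dd σ).ker = (VS F p k).map (Units.map (algebraMap F L : F →* L))) ∧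
  ∀ v : HeightOneSpectrum (𝓞 F),
    UU L v ⊓ (dd σ).ker = (UF v).map (Units.map (algebraMap F L : F →* L))

/-- (B) the bound for the degree. -/
def PropB.{u} : Prop := ∀ (F : Type u) [Field F] [NumberField F] [IsTotallyReal F],
  Module.finrank ℚ F ≤ 2 → ∀ (p : ℕ), p.Prime → p ≠ 2 → ∀ v : HeightOneSpectrum (𝓞 F),
  (p : 𝓞 F) ∉ v.asIdeal → ∃ C : ℕ, ∀ (L : Type u) [Field L] [NumberField L] [Algebra F L]
  [IsGalois F L] (σ : L ≃ₐ[F] L), (∀ τ, τ ∈ Subgroup.zpowers σ) → Odd (Module.finrank F L) →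
  (∀ w : HeightOneSpectrum (𝓞 L), (p : 𝓞 L) ∉ w.asIdeal → Unr F w) → Split L v →
  Module.finrank F L ≤ C

end Vale.Agent.P024.M3
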