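import Vale.Agent.P024.M3.Spec
import Vale.Agent.P024.H644.Defs

namespace Vale.Agent.P024.M3

open NumberField IsDedekindDomain

/-- (G) the Galois side: the cyclic layers of a character of infinite order. -/
def PropG.{u} : Prop := ∀ (F : Type u) [Field F] [NumberField F] (p : ℕ) [Fact p.Prime], p ≠ 2 →
  ∀ ψ : (AlgebraicClosure F ≃ₐ[F] AlgebraicClosure F) →* ℤ_[p]ˣ, Continuous ψ →
  (¬ ∃ m : ℕ, 0 < m ∧ ∀ g, ψ g ^ m = 1) → ∀ v : HeightOneSpectrum (𝓞 F),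
  (p : 𝓞 F) ∉ v.asIdeal → TR.Kills ψ v →
  ∀ B : ℕ, ∃ (L : Type u) (_ : Field L) (_ : NumberField L) (_ : Algebra F L)
    (_ : IsGalois F L) (σ : L ≃ₐ[F] L), (∀ τ, τ ∈ Subgroup.zpowers σ) ∧
    Odd (Module.finrank F L) ∧
    (∀ w : HeightOneSpectrum (𝓞 L), (p : 𝓞 L) ∉ w.asIdeal → Unr F w) ∧
    Split L v ∧ B < Module.finrank F L

end Vale.Agent.P024.M3
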