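import Vale.Agent.P024.M3.Final
import Vale.Agent.P024.M3.SpecG

namespace Vale.Agent.P024.M3

open NumberField IsDedekindDomain

theorem noSplit_of.{u} (hB : PropB.{u}) (hG : PropG.{u}) (F : Type u) [Field F] [NumberField F]
    [IsTotallyReal F] (hF : Module.finrank ℚ F ≤ 2) (p : ℕ) [hp : Fact p.Prime] (hp2 : p ≠ 2) :
    TR.NoSplit F p := by
  intro ψ hψ hinf
  by_contra hcon
  obtain ⟨v, hv, hvp⟩ : ∃ v : HeightOneSpectrum (𝓞 F), TR.Kills ψ v ∧ (p : 𝓞 F) ∉ v.asIdeal := by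
    by_contra h
    push Not at h
    exact hinf ((finite_above F hp.out.ne_zero).subset fun v hv => h v hv)
  obtain ⟨C, hC⟩ := hB F hF p hp.out hp2 v hvp
  obtain ⟨L, _, _, _, _, σ, hσ, hodd, hunr, hs, hlt⟩ := hG F p hp2 ψ hψ hcon v hvp hv C
  exact absurd (hC L σ hσ hodd hunr hs) (not_le.2 hlt)

end Vale.Agent.P024.M3
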