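import Mathlib

/-!
Definitions for the first inequality (block M3).  Everything lives in the group `Lˣ`.
-/

namespace Vale.Agent.P024.M3

open NumberField IsDedekindDomain

section Herbrand

variable {M : Type*} [CommGroup M]

/-- `|Ĥ⁰(B)| = [ker d ∩ B : n B]` (`0` if infinite). -/
noncomputable def h0 (d n : M →* M) (B : Subgroup M) : ℕ := (B.map n).relIndex (B ⊓ d.ker)

/-- `|H¹(B)| = [ker n ∩ B : d B]` (`0` if infinite). -/
noncomputable def h1 (d n : M →* M) (B : Subgroup M) : ℕ := (B.map d).relIndex (B ⊓ n.ker)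

/-- `[{a : d a ∈ B} : (ker d) B]` (`0` if infinite). -/
noncomputable def e1 (d : M →* M) (B : Subgroup M) : ℕ := (d.ker ⊔ B).relIndex (B.comap d)

end Herbrand

section

variable {F L : Type*} [Field F] [Field L] [Algebra F L]

/-- `x ↦ σ x / x`. -/
noncomputable def dd (σ : L ≃ₐ[F] L) : Lˣ →* Lˣ where
  toFun x := Units.map (σ : L →* L) x / x
  map_one' := by simp
  map_mul' x y := by rw [map_mul, mul_div_mul_comm]

/-- The norm, as an endomorphism of `Lˣ`. -/
noncomputable def nn (F L : Type*) [Field F] [Field L] [Algebra F L] [Fintype (L ≃ₐ[F] L)] :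
    Lˣ →* Lˣ where
  toFun x := ∏ τ : L ≃ₐ[F] L, Units.map (τ : L →* L) x
  map_one' := by simp
  map_mul' x y := by simp [Finset.prod_mul_distrib]

end

/-- The elements of `Lˣ` which are units at all primes of `L` above `p`. -/
def RR (L : Type*) [Field L] [NumberField L] (p : ℕ) : Subgroup Lˣ where
  carrier := {x | ∀ w : HeightOneSpectrum (𝓞 L), (p : 𝓞 L) ∈ w.asIdeal →
    w.valuation L (x : L) = 1}
  one_mem' := by intro w _; simp
  mul_mem' := by intro x y hx hy w hw; simp [hx w hw, hy w hw]
  inv_mem' := by intro x hx w hw; simp [hx w hw]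

/-- The elements `x` of `RR L p` with `x ≡ 1 mod p^k` at all primes above `p`. -/
def VS (L : Type*) [Field L] [NumberField L] (p k : ℕ) : Subgroup Lˣ where
  carrier := {x | ∀ w : HeightOneSpectrum (𝓞 L), (p : 𝓞 L) ∈ w.asIdeal →
    w.valuation L (x : L) = 1 ∧ w.valuation L ((x : L) - 1) ≤ w.valuation L ((p : L) ^ k)}
  one_mem' := by intro w _; simp
  mul_mem' := by
    intro x y hx hy w hw
    refine ⟨by simp [(hx w hw).1, (hy w hw).1], ?_⟩
    have h : ((x * y : Lˣ) : L) - 1 = (x : L) * ((y : L) - 1) + ((x : L) - 1) := by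
      push_cast; ring
    rw [h]
    refine le_trans (Valuation.map_add _ _ _) (max_le ?_ (hx w hw).2)
    rw [map_mul, (hx w hw).1, one_mul]
    exact (hy w hw).2
  inv_mem' := by
    intro x hx w hw
    refine ⟨by simp [(hx w hw).1], ?_⟩
    have h : ((x⁻¹ : Lˣ) : L) - 1 = -((x : L)⁻¹ * ((x : L) - 1)) := by
      push_cast
      rw [mul_sub, inv_mul_cancel₀ x.ne_zero]; ring
    rw [h, Valuation.map_neg, map_mul, map_inv₀, (hx w hw).1, inv_one, one_mul]
    exact (hx w hw).2

/-- The elements of `Fˣ` which are units at all primes of `F` different from `v`. -/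
def UF {F : Type*} [Field F] [NumberField F] (v : HeightOneSpectrum (𝓞 F)) : Subgroup Fˣ where
  carrier := {x | ∀ w : HeightOneSpectrum (𝓞 F), w ≠ v → w.valuation F (x : F) = 1}
  one_mem' := by intro w _; simp
  mul_mem' := by intro x y hx hy w hw; simp [hx w hw, hy w hw]
  inv_mem' := by intro x hx w hw; simp [hx w hw]

variable {F L : Type*} [Field F] [NumberField F] [Field L] [NumberField L] [Algebra F L]

/-- The elements of `Lˣ` which are units at all primes of `L` not above the prime `v` of `F`. -/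
def UU (L : Type*) [Field L] [NumberField L] [Algebra F L] (v : HeightOneSpectrum (𝓞 F)) :
    Subgroup Lˣ where
  carrier := {x | ∀ w : HeightOneSpectrum (𝓞 L), w.asIdeal.under (𝓞 F) ≠ v.asIdeal →
    w.valuation L (x : L) = 1}
  one_mem' := by intro w _; simp
  mul_mem' := by intro x y hx hy w hw; simp [hx w hw, hy w hw]
  inv_mem' := by intro x hx w hw; simp [hx w hw]

/-- Ramification index one over `F`. -/
def Unr (F : Type*) [Field F] {L : Type*} [Field L] [NumberField L] [Algebra F L]
    (w : HeightOneSpectrum (𝓞 L)) : Prop :=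
  ∃ x : F, w.valuation L (algebraMap F L x) = WithZero.exp (-1 : ℤ)

/-- The prime `v` of `F` splits completely in `L`. -/
def Split (L : Type*) [Field L] [NumberField L] [Algebra F L] (v : HeightOneSpectrum (𝓞 F)) :
    Prop :=
  ∀ w : HeightOneSpectrum (𝓞 L), w.asIdeal.under (𝓞 F) = v.asIdeal →
    ∀ τ : L ≃ₐ[F] L, (∀ x : L, w.valuation L (τ x) = w.valuation L x) → τ = 1

end Vale.Agent.P024.M3
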