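import Vale.Agent.P024.M3.Spec

namespace Vale.Agent.P024.M3

open NumberField IsDedekindDomain

theorem UU_le_RR {F L : Type*} [Field F] [NumberField F] [Field L] [NumberField L] [Algebra F L]
    (v : HeightOneSpectrum (𝓞 F)) {p : ℕ} (hv : (p : 𝓞 F) ∉ v.asIdeal) : UU L v ≤ RR L p := by
  intro x hx w hw
  refine hx w fun h => hv ?_
  rw [← h, Ideal.mem_comap, map_natCast]
  exact hw

/-- The bound for the degree, from the blocks. -/
theorem propB_of.{u} (h90 : PropH90.{u}) (hU : PropU.{u}) (hA : PropA.{u}) (hD : PropD.{u})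
    (hE : PropE.{u}) (hTR : PropTR.{u}) : PropB.{u} := by
  intro F _ _ _ hF p hp hp2 v hv
  obtain ⟨C, hC⟩ := hE F hF p hp hp2 v hv
  refine ⟨classNumber F * C, ?_⟩
  intro L _ _ _ _ σ hσ hodd hunr hsplit
  obtain ⟨hU0, hU1⟩ := hU F L σ hσ hodd v hsplit
  obtain ⟨hE0, k, hT0, hET⟩ := hD F L σ hσ p hp
  have hA1 := hA F L σ hσ p hp hunr v hv hE0
  obtain ⟨-, hTR1, hTR2, hTR3⟩ := hTR F L σ hσ
  obtain ⟨hC0, hC1⟩ := hC k
  rw [← h90 F L σ hσ (UU L v), hU1] at hA1
  set ι : Fˣ →* Lˣ := Units.map (algebraMap F L : F →* L) with hι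
  have hinj : Function.Injective ι := Units.map_injective (algebraMap F L).injective
  set d := dd σ with hd
  set n := nn F L with hn
  set A := RR L p ⊓ d.ker with hAdef
  set V := VS L p k ⊓ d.ker with hVdef
  set X := UU L v ⊓ d.ker with hXdef
  set Bn := (RR L p).map n ⊔ V with hBdef
  have hVA : V ≤ A := fun x hx => ⟨fun w hw => (hx.1 w hw).1, hx.2⟩
  have hXA : X ≤ A := fun x hx => ⟨UU_le_RR v hv hx.1, hx.2⟩
  have h1 : (X ⊔ V).relIndex A ≤ C ∧ (X ⊔ V).relIndex A ≠ 0 := by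
    have h2 : X ⊔ V = (UF v ⊔ VS F p k).map ι := by
      rw [Subgroup.map_sup, hXdef, hVdef, hTR3 v, hTR2 p k hp]
    rw [h2, hAdef, hTR1 p hp, Subgroup.relIndex_map_map_of_injective _ _ hinj]
    exact ⟨hC1, hC0⟩
  set D := (Bn ⊓ A) ⊔ X with hDdef
  have hDA : D ≤ A := sup_le inf_le_right hXA
  have hXVD : X ⊔ V ≤ D :=
    sup_le le_sup_right (le_trans (le_inf le_sup_right hVA) le_sup_left)
  have hT : Bn.relIndex A = (Bn ⊓ A).relIndex D * D.relIndex A := by
    rw [Subgroup.relIndex_mul_relIndex _ _ _ le_sup_left hDA, Subgroup.inf_relIndex_right]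
  have h3 : D.relIndex A ≤ C :=
    le_trans (Subgroup.relIndex_le_of_le_left hXVD h1.2) h1.1
  have h4 : (Bn ⊓ A).relIndex D ≤ h0 d n (UU L v) := by
    have h5 : (Bn ⊓ A).relIndex D = (Bn ⊓ A).relIndex X := by
      rw [hDdef, Subgroup.relIndex_sup_left]
    have h6 : (Bn ⊓ A).relIndex X = Bn.relIndex X := by
      rw [← Subgroup.inf_relIndex_right (Bn ⊓ A) X, inf_assoc, inf_eq_right.2 hXA,
        Subgroup.inf_relIndex_right]
    rw [h5, h6]
    refine Subgroup.relIndex_le_of_le_left ?_ hU0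
    exact le_trans (Subgroup.map_mono (UU_le_RR v hv)) le_sup_left
  have h7 : Module.finrank F L * h0 d n (UU L v) ≤ classNumber F * C * h0 d n (UU L v) :=
    calc Module.finrank F L * h0 d n (UU L v) ≤ classNumber F * e1 d (RR L p) := hA1
      _ ≤ classNumber F * ((Bn ⊓ A).relIndex D * D.relIndex A) := by
          rw [← hT]; exact Nat.mul_le_mul_left _ hET
      _ ≤ classNumber F * (h0 d n (UU L v) * C) :=
          Nat.mul_le_mul_left _ (Nat.mul_le_mul h4 h3)
      _ = classNumber F * C * h0 d n (UU L v) := by ring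
  exact Nat.le_of_mul_le_mul_right h7 (Nat.pos_of_ne_zero hU0)

end Vale.Agent.P024.M3
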